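import Vale.Agent.P144D.B.GapOf
import Vale.Agent.P144Z.E5.Main

/-!
A small cluster of fluxes deep in a region keeps the spectral gap.
-/

namespace Vale.Agent.N144.G

open Finset Matrix Vale.Agent.P144Z

variable {M : ℕ} [NeZero M]

/-- A globally flat sign field that agrees with the weights near `c`. -/
theorem loc_flat {A : Gauge M} (hA : IsW A) {c : Tor M} {u : ℕ} (hM : 2 * u + 5 ≤ M)
    (hF : Flat A c (u + 1)) : ∃ A₁ : Gauge M, IsSign A₁ ∧ (∀ f, flux A₁ f = 1) ∧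
      ∀ e : Tor M × Fin 2, tdist e.1 c ≤ u → A e = A₁ e := by
  obtain ⟨A₁, h1, h2, h3⟩ := B3b.exists_flat (shp_sign A) (by omega) (W.flat_shp hA hF)
  refine ⟨A₁, h1, h2, fun e he => ?_⟩
  rw [← W.shp_flat hA hF e (by omega)]
  exact h3 e.1 e.2 (by omega) ((E1.near_add e.1 c e.2).trans (by omega))

omit [NeZero M] in
theorem flux_mul (A B : Gauge M) (f : Tor M) : flux (A * B) f = flux A f * flux B f := by
  simp only [flux, Pi.mul_apply]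
  ring

omit [NeZero M] in
theorem cluster_mul {A B : Gauge M} {c : Tor M} {R r : ℕ} (hA : IsSign A)
    (hF : ∀ f, flux A f = 1) (h : Cluster B 1 c R r) : Cluster (A * B) A c R r := by
  have e : ∀ f, flux (A * B) f = flux B f := fun f => by rw [flux_mul, hF, one_mul]
  refine ⟨fun e => G.sign_mul (hA e) (h.sign e), hA, hF, fun e he => ?_,
    fun f hf => h.near f (e f ▸ hf), fun f f' hf hf' => h.sep f f' (e f ▸ hf) (e f' ▸ hf')⟩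
  rw [Pi.mul_apply, h.out e he, Pi.one_apply, mul_one]

theorem Dm_near {A A' : Gauge M} {c : Tor M} {u : ℕ}
    (h : ∀ e : Tor M × Fin 2, tdist e.1 c ≤ u + 1 → A e = A' e) (g : Tor M × Fin 4 → ℝ)
    (s : Tor M × Fin 4) (hs : tdist s.1 c ≤ u) : (Dm A *ᵥ g) s = (Dm A' *ᵥ g) s := by
  simpa only [pow_one] using W.Dm_pow_congr g 1 u h s.1 s.2 hs

theorem l2sq_near {A A' : Gauge M} {c : Tor M} {u : ℕ}
    (h : ∀ e : Tor M × Fin 2, tdist e.1 c ≤ u + 1 → A e = A' e) (g : Tor M × Fin 4 → ℝ) :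
    l2sq (ball c u) (Dm A' *ᵥ g) ≤ l2sq univ (Dm A *ᵥ g) :=
  (E5.l2sq_congr fun s hs => (Dm_near h g s (E5.mem_ball.1 hs)).symm).trans_le
    (E5.l2sq_le_univ _ _)

/-- Localization of a field, with the norms of the whole torus. -/
theorem cut_loc : ∃ C : ℝ, 1 ≤ C ∧ ∀ (M : ℕ) [NeZero M] (A A' : Gauge M), IsSign A' →
    ∀ (c : Tor M) (ρ : ℕ), 2 ≤ ρ → (∀ e : Tor M × Fin 2, tdist e.1 c ≤ 2 * ρ + 1 → A e = A' e) →
    ∀ g : Tor M × Fin 4 → ℝ, ∃ φ : Tor M × Fin 4 → ℝ,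
      (∀ s, tdist s.1 c ≤ ρ → φ s = g s) ∧ l2sq univ φ ≤ l2sq univ g ∧
      ρ ^ 2 * l2sq univ (Dm A' *ᵥ φ) ≤ C * (l2sq univ g + ρ ^ 2 * l2sq univ (Dm A *ᵥ g)) := by
  obtain ⟨C, hC, hc⟩ := E5.cut_est
  refine ⟨18 * C, by linarith, fun M _ A A' hA c ρ hρ h g => ?_⟩
  obtain ⟨η, e0, e1, e2, e3⟩ := hc M A' hA c ρ (ρ / 2) (by omega)
  have e4 : ∀ x, x ∉ ball c (2 * ρ) → η x = 0 := fun x hx => e2 x (by
    rw [E5.mem_ball] at hx
    omega)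
  have h1 := E5.l2sq_nonneg univ g
  have h2 := mul_nonneg (sq_nonneg (ρ : ℝ)) (E5.l2sq_nonneg univ (Dm A *ᵥ g))
  refine ⟨fun s => η s.1 * g s, fun s hs => by simp only [e1 _ hs, one_mul],
    E5.l2sq_cut e0 (by simp) g, ?_⟩
  have k2 := E5.l2sq_add_le univ (Dm A' *ᵥ (fun s => η s.1 * g s) -
    fun s => η s.1 * (Dm A' *ᵥ g) s) fun s => η s.1 * (Dm A' *ᵥ g) s
  rw [sub_add_cancel] at k2
  have k3 := mul_le_mul_of_nonneg_left ((E5.l2sq_cut e0 e4 (Dm A' *ᵥ g)).trans (l2sq_near h g))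
    (sq_nonneg (ρ : ℝ))
  have k4 := (e3 g).trans (mul_le_mul_of_nonneg_left (E5.l2sq_le_univ _ g) (by linarith))
  have k5 := mul_le_mul_of_nonneg_right
    (by exact_mod_cast (by nlinarith [(by omega : ρ ≤ 3 * (ρ / 2))] : ρ ^ 2 ≤ 9 * (ρ / 2) ^ 2) :
      (ρ : ℝ) ^ 2 ≤ 9 * ((ρ / 2 : ℕ) : ℝ) ^ 2)
    (E5.l2sq_nonneg univ (Dm A' *ᵥ (fun s => η s.1 * g s) - fun s => η s.1 * (Dm A' *ᵥ g) s))
  have k6 := mul_le_mul_of_nonneg_left k2 (sq_nonneg (ρ : ℝ))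
  have k8 := mul_le_mul_of_nonneg_right hC h2
  nlinarith

theorem small_num {R p N E H X C K : ℝ} (hR : 0 < R) (hp : R ≤ p) (hC : 1 ≤ C) (hK : 0 ≤ K)
    (hN : 0 ≤ N) (hE : 0 ≤ E) (h1 : N ≤ H) (h2 : p ^ 2 * E ≤ C * H)
    (h3 : X ≤ K * (R ^ 2 * E + R * (√N * √E))) : X ≤ 2 * K * C * (R / p) * H := by
  have hp0 : 0 < p := by linarith
  have hH : 0 ≤ H := by linarith
  have k1 : p * (√N * √E) ≤ C * H := by
    refine abs_le_of_sq_le_sq' ?_ (by positivity) |>.2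
    rw [mul_pow, mul_pow, Real.sq_sqrt hN, Real.sq_sqrt hE]
    calc p ^ 2 * (N * E) = 1 * N * (p ^ 2 * E) := by ring
      _ ≤ C * H * (C * H) := by gcongr
      _ = _ := by ring
  calc X ≤ K * (R * p * E + R * (√N * √E)) := h3.trans (by rw [pow_two]; gcongr)
    _ = K * (R / p) * (p ^ 2 * E + p * (√N * √E)) := by field_simp
    _ ≤ K * (R / p) * (C * H + C * H) := by gcongr
    _ = _ := by ring

/-- The interior estimate for weights that are flat near `c`. -/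
theorem flat_loc : ∃ C : ℝ, 1 ≤ C ∧ ∀ (M : ℕ) [NeZero M] (A A' : Gauge M), IsSign A' →
    (∀ f, flux A' f = 1) → ∀ (c : Tor M) (R s : ℕ), 1 ≤ R → 16 * R ≤ s → 2 * s + 1 ≤ M →
    (∀ e : Tor M × Fin 2, tdist e.1 c ≤ s + 1 → A e = A' e) → ∀ y : Tor M × Fin 4 → ℝ,
    l2sq (ball c (4 * R)) y ≤ C * ((R : ℝ) / s * √((R : ℝ) / s)) *
      (l2sq univ y + s ^ 2 * l2sq univ (Dm A *ᵥ y)) := by
  obtain ⟨C, hC, h⟩ := E5.flat_est
  refine ⟨4 * C, by linarith, fun M _ A A' h1 h2 c R s hR hs hM hA y => ?_⟩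
  have k := h M A' h1 h2 c (2 * R) s (by omega) (by omega) hM y
  rw [show 2 * (2 * R) = 4 * R by ring] at k
  refine k.trans ?_
  have k1 := mul_le_mul_of_nonneg_left (l2sq_near hA y) (sq_nonneg (s : ℝ))
  have k2 := E5.l2sq_nonneg univ y
  have k3 := mul_nonneg (sq_nonneg (s : ℝ)) (E5.l2sq_nonneg (ball c s) (Dm A' *ᵥ y))
  have k4 : √(((2 * R : ℕ) : ℝ) / s) ≤ 2 * √((R : ℝ) / s) := by
    rw [show (2 : ℝ) = √4 by rw [show (4 : ℝ) = 2 ^ 2 by norm_num, Real.sqrt_sq zero_le_two],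
      ← Real.sqrt_mul (by norm_num)]
    refine Real.sqrt_le_sqrt ?_
    push_cast
    rw [mul_div_assoc]
    gcongr
    norm_num
  calc _ ≤ C * (((2 * R : ℕ) : ℝ) / s * (2 * √((R : ℝ) / s))) *
        (l2sq univ y + s ^ 2 * l2sq univ (Dm A *ᵥ y)) := by gcongr
    _ = _ := by push_cast; ring

/-- The cluster carries a small part of the norm. -/
theorem clus_loc (Λ : ℕ) : ∃ K : ℝ, 1 ≤ K ∧ ∀ (M : ℕ) [NeZero M] (A A' A'' : Gauge M) (c : Tor M)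
    (R r s : ℕ), Cluster A' A'' c R r → 256 ≤ r → r ≤ R → R ≤ Λ * r → 16 * R ≤ s →
    2 * s + 1 ≤ M → (∀ e : Tor M × Fin 2, tdist e.1 c ≤ 2 * s + 1 → A e = A' e) →
    ∀ φ : Tor M × Fin 4 → ℝ, l2sq (ball c (4 * R)) φ ≤ K * ((R : ℝ) / s) *
      (l2sq univ φ + s ^ 2 * l2sq univ (Dm A *ᵥ φ)) := by
  obtain ⟨K, hK, hk⟩ := cluster_est Λ
  obtain ⟨C, hC, hc⟩ := cut_loc
  obtain ⟨Cf, hCf, hf⟩ := flat_loc
  have c0 : 0 ≤ 2 * K * C := by positivity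
  refine ⟨2 * K * C + Cf, by linarith, fun M _ A A' A'' c R r s h h1 h2 h3 h4 hM hA φ => ?_⟩
  have hR : (0 : ℝ) < R := by exact_mod_cast (by omega : 0 < R)
  have hs : (R : ℝ) ≤ s := by exact_mod_cast (by omega : R ≤ s)
  have hN := E5.l2sq_nonneg univ φ
  have hE := mul_nonneg (sq_nonneg (s : ℝ)) (E5.l2sq_nonneg univ (Dm A *ᵥ φ))
  have hq : 0 ≤ (R : ℝ) / s := by positivity
  by_cases hF : ∃ f, flux A' f = -1
  · obtain ⟨ψ, a1, a2, a3⟩ := hc M A A' h.sign c s (by omega) hA φ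
    have k1 := hk M A' A'' c R r h hF h1 h2 h3 (by omega) ψ
    rw [E5.l2sq_congr (g := φ) fun t ht => a1 t ((E5.mem_ball.1 ht).trans (by omega))] at k1
    refine (small_num hR hs hC (by linarith) (E5.l2sq_nonneg _ _) (E5.l2sq_nonneg _ _)
      (a2.trans (le_add_of_nonneg_right hE)) a3 k1).trans ?_
    gcongr
    linarith
  · refine (hf M A A' h.sign (fun f => E5.flux_one h.sign fun hf => hF ⟨f, hf⟩) c R s (by omega)
      h4 hM (fun e he => hA e (by omega)) φ).trans ?_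
    have q1 : √((R : ℝ) / s) ≤ 1 := Real.sqrt_le_one.2 ((div_le_one (by linarith)).2 hs)
    have q2 : (R : ℝ) / s * √((R : ℝ) / s) ≤ (R : ℝ) / s := mul_le_of_le_one_right hq q1
    gcongr
    linarith

/-- Removal of the neighbourhood of the cluster. -/
theorem split_loc : ∃ C : ℝ, 1 ≤ C ∧ ∀ (M : ℕ) [NeZero M] (A A₀ A' : Gauge M) (c : Tor M)
    (R : ℕ), IsSign A' → 1 ≤ R → (∀ e, R < tdist e.1 c → A e = A₀ e) →
    (∀ e : Tor M × Fin 2, tdist e.1 c ≤ 2 * R + 2 → A e = A' e) →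
    ∀ φ : Tor M × Fin 4 → ℝ, ∃ ψ h s : Tor M × Fin 4 → ℝ,
      Dm A₀ *ᵥ ψ = h - s ∧ l2sq univ h ≤ l2sq univ (Dm A *ᵥ φ) ∧ SuppIn s c (2 * R + 1) ∧
      (R : ℝ) ^ 2 * l2sq univ s ≤ C * l2sq (ball c (4 * R)) φ ∧
      l2sq univ (φ - ψ) ≤ l2sq (ball c (4 * R)) φ := by
  obtain ⟨C, hC, hc⟩ := E5.cut_est
  refine ⟨C, hC, fun M _ A A₀ A' c R h hR hO hA φ => ?_⟩
  obtain ⟨η, e0, e1, e2, e3⟩ := hc M A' h c (R + 1) R hR
  have e0' : ∀ x, 0 ≤ 1 - η x ∧ 1 - η x ≤ 1 := fun x => ⟨by linarith [(e0 x).2], by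
    linarith [(e0 x).1]⟩
  refine ⟨fun s => (1 - η s.1) * φ s, fun s => (1 - η s.1) * (Dm A *ᵥ φ) s,
    Dm A' *ᵥ (fun s => η s.1 * φ s) - fun s => η s.1 * (Dm A' *ᵥ φ) s, ?_,
    E5.l2sq_cut e0' (by simp) _, fun s hs => ?_, (e3 φ).trans (mul_le_mul_of_nonneg_left
      (E5.l2sq_mono (E5.ball_mono c (by omega)) φ) (by linarith)), ?_⟩
  · rw [← E5.Dm_congr hO fun s hs => by rw [e1 _ hs, sub_self, zero_mul]]
    have k1 : (fun s : Tor M × Fin 4 => (1 - η s.1) * φ s) = φ - fun s => η s.1 * φ s := by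
      funext s
      simp only [Pi.sub_apply]
      ring
    have k2 : Dm A *ᵥ (fun s => η s.1 * φ s) = Dm A' *ᵥ fun s => η s.1 * φ s :=
      B3b.Dm_congr (z := c) (ρ := 2 * R + 1) (fun x i hx _ => hA (x, i) hx)
        fun s hs => by rw [e2 _ (by omega), zero_mul]
    rw [k1, mulVec_sub, k2]
    funext s
    have k3 : η s.1 * (Dm A' *ᵥ φ) s = η s.1 * (Dm A *ᵥ φ) s := by
      rcases le_or_gt (tdist s.1 c) (2 * R + 1) with hs | hs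
      · rw [Dm_near hA φ s hs]
      · rw [e2 _ (by omega), zero_mul, zero_mul]
    simp only [Pi.sub_apply, k3]
    ring
  · have k := Dm_local A' (φ := fun s => η s.1 * φ s) (φ' := 0) (z := s.1) (r := 0) 1
      (fun t ht => by
        have t1 := tdist_triangle s.1 t.1 c
        rw [tdist_comm s.1 t.1] at t1
        rw [e2 _ (by omega), zero_mul, Pi.zero_apply]) s (by rw [tdist_self])
    rw [pow_one, mulVec_zero] at k
    rw [Pi.sub_apply, k, e2 _ (by omega), zero_mul, Pi.zero_apply, sub_zero]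
  · have : φ - (fun s : Tor M × Fin 4 => (1 - η s.1) * φ s) = fun s => η s.1 * φ s := by
      funext s
      simp only [Pi.sub_apply]
      ring
    rw [this]
    refine E5.l2sq_cut e0 (fun x hx => e2 x ?_) _
    rw [E5.mem_ball] at hx
    omega

theorem gap_num {u q p G N E X S W Y P K Cs Cf : ℝ} (hq : 0 ≤ q) (hq1 : q ≤ 1) (hu : u = q ^ 2)
    (hu0 : 0 < u) (hG : 1 ≤ G) (hK : 0 ≤ K) (hCs : 0 ≤ Cs) (hCf : 0 ≤ Cf) (hN : 0 ≤ N)
    (hE : 0 ≤ E) (hsm : 8 * (K * (1 + Cs * Cf * (G ^ 2 + 1))) * q ≤ 1)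
    (h1 : X ≤ K * u * (N + p ^ 2 * E)) (h2 : (u * p) ^ 2 * S ≤ Cs * X)
    (h3 : W ≤ S * (Cf * (u * q) * ((G ^ 2 + 1) * p ^ 2))) (h4 : Y ≤ (G * p) ^ 2 * E)
    (h5 : P ≤ X) (h6 : N ≤ 2 * Y + 2 * (2 * P + 2 * W)) : N ≤ (3 * G * p) ^ 2 * E := by
  have hH : 0 ≤ N + p ^ 2 * E := by positivity
  have hE' : 0 ≤ p ^ 2 * E := by positivity
  have k1 : W ≤ K * (Cs * Cf * (G ^ 2 + 1)) * q * (N + p ^ 2 * E) := by
    refine le_of_mul_le_mul_left ?_ hu0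
    calc u * W ≤ u * (S * (Cf * (u * q) * ((G ^ 2 + 1) * p ^ 2))) := by gcongr
      _ = Cf * q * (G ^ 2 + 1) * ((u * p) ^ 2 * S) := by ring
      _ ≤ Cf * q * (G ^ 2 + 1) * (Cs * (K * u * (N + p ^ 2 * E))) :=
          mul_le_mul_of_nonneg_left (h2.trans (mul_le_mul_of_nonneg_left h1 hCs)) (by positivity)
      _ = _ := by ring
  have k2 : P ≤ K * q * (N + p ^ 2 * E) := by
    refine h5.trans (h1.trans ?_)
    rw [hu]
    gcongr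
    nlinarith
  have k3 := mul_le_mul_of_nonneg_right hsm hH
  have k4 : 1 * (p ^ 2 * E) ≤ G ^ 2 * (p ^ 2 * E) := by gcongr; nlinarith
  nlinarith

/-- A small cluster of fluxes in a flat part keeps the gap. -/
theorem clus_gap (Λ : ℕ) (Γ : ℝ) (hΓ : 1 ≤ Γ) : ∃ K₀ : ℕ, 16 ≤ K₀ ∧ ∀ (M : ℕ) [NeZero M]
    (A B : Gauge M) (c : Tor M) (R r s : ℕ), IsW A → Cluster B 1 c R r → 256 ≤ r → r ≤ R →
    R ≤ Λ * r → K₀ * R ≤ s → 4 * s + 7 ≤ M → Flat A c (2 * s + 2) →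
    (∀ φ, l2sq univ φ ≤ (Γ * s) ^ 2 * l2sq univ (Dm A *ᵥ φ)) →
    ∀ φ, l2sq univ φ ≤ (3 * Γ * s) ^ 2 * l2sq univ (Dm (A * B) *ᵥ φ) := by
  obtain ⟨K, hK, hk⟩ := clus_loc Λ
  obtain ⟨Cs, hCs, hs⟩ := split_loc
  obtain ⟨Cf, hCf, hf⟩ := flat_loc
  obtain ⟨Q, hQ, eQ⟩ : ∃ Q : ℝ, 0 < Q ∧ Q = 8 * (K * (1 + Cs * Cf * (Γ ^ 2 + 1))) :=
    ⟨_, by positivity, rfl⟩
  refine ⟨16 + ⌈Q ^ 2⌉₊, by omega, fun M _ A B c R r s hA hB h1 h2 h3 h4 hM hF hG φ => ?_⟩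
  rw [add_mul] at h4
  obtain ⟨A₁, a1, a2, a3⟩ := loc_flat hA (u := 2 * s + 1) (by omega) hF
  have a4 : ∀ e : Tor M × Fin 2, tdist e.1 c ≤ 2 * s + 1 → (A * B) e = (A₁ * B) e := fun e he => by
    rw [Pi.mul_apply, Pi.mul_apply, a3 e he]
  have hc := cluster_mul a1 a2 hB
  have hR : (0 : ℝ) < R := by exact_mod_cast (by omega : 0 < R)
  have hRs : (R : ℝ) ≤ s := by exact_mod_cast (by omega : R ≤ s)
  have hs0 : (0 : ℝ) < s := by linarith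
  have b1 := hk M (A * B) (A₁ * B) A₁ c R r s hc h1 h2 h3 (by omega) (by omega) a4 φ
  obtain ⟨ψ, h, σ, b2, b3, b4, b5, b6⟩ := hs M (A * B) A (A₁ * B) c R hc.sign (by omega)
    (fun e he => by rw [Pi.mul_apply, hB.out e he, Pi.one_apply, mul_one])
    (fun e he => a4 e (by omega)) φ
  have hS := E5.l2sq_nonneg univ σ
  obtain ⟨w, w1, w2⟩ := exists_solve A univ σ (c := l2sq univ σ *
      (Cf * ((R : ℝ) / s * √((R : ℝ) / s)) * ((Γ ^ 2 + 1) * s ^ 2))) (by positivity)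
    fun ζ _ => by
      have k1 := E5.dot_sq_le (B := ball c (4 * R))
        (fun u hu => b4 u (by rw [E5.mem_ball] at hu; omega)) ζ
      have k2 := hf M A A₁ a1 a2 c R s (by omega) (by omega) (by omega)
        (fun e he => a3 e (by omega)) ζ
      have k3 := hG ζ
      refine k1.trans ?_
      rw [mul_assoc]
      refine mul_le_mul_of_nonneg_left (k2.trans ?_) hS
      rw [mul_assoc _ ((Γ ^ 2 + 1) * (s : ℝ) ^ 2)]
      exact mul_le_mul_of_nonneg_left (by linarith) (by positivity)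
  have b7 : Dm A *ᵥ (ψ + w) = h := by
    funext t
    rw [mulVec_add, Pi.add_apply, b2, w2 t (mem_univ _), Pi.sub_apply, sub_add_cancel]
  have b8 := (hG (ψ + w)).trans (mul_le_mul_of_nonneg_left (b7 ▸ b3) (sq_nonneg _))
  have b9 := E5.l2sq_add_le univ (ψ + w) (φ - ψ - w)
  rw [show ψ + w + (φ - ψ - w) = φ by abel] at b9
  have b10 := E5.l2sq_sub_le univ (φ - ψ) w
  have q0 := Real.sqrt_nonneg ((R : ℝ) / s)
  have q1 : √((R : ℝ) / s) ≤ 1 := Real.sqrt_le_one.2 ((div_le_one hs0).2 hRs)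
  have q2 : (R : ℝ) / s = √((R : ℝ) / s) ^ 2 := (Real.sq_sqrt (by positivity)).symm
  have q3 : Q * √((R : ℝ) / s) ≤ 1 := by
    refine abs_le_of_sq_le_sq' ?_ zero_le_one |>.2
    rw [mul_pow, ← q2, one_pow, ← mul_div_assoc, div_le_one hs0]
    calc Q ^ 2 * R ≤ (⌈Q ^ 2⌉₊ : ℝ) * R := by gcongr; exact Nat.le_ceil _
      _ ≤ s := by exact_mod_cast (by omega : ⌈Q ^ 2⌉₊ * R ≤ s)
  exact gap_num q0 q1 q2 (by positivity) hΓ (by linarith) (by linarith) (by linarith)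
    (E5.l2sq_nonneg _ _) (E5.l2sq_nonneg _ _) (eQ ▸ q3) b1
    (by rwa [div_mul_cancel₀ _ hs0.ne']) w1 b8 b6 (by linarith)

/-- The same for weights equal to one near `c`. -/
theorem gap_one (Γ : ℝ) (hΓ : 1 ≤ Γ) (Λ : ℕ) : ∃ K₀ : ℕ, ∀ (M : ℕ) [NeZero M] (A B : Gauge M)
    (c : Tor M) (r R ρ : ℕ), IsW A → (∀ e, tdist e.1 c ≤ ρ → A e = 1) → Cluster B 1 c R r →
    256 ≤ r → r ≤ R → R ≤ Λ * r → K₀ * R ≤ ρ → 16 * ρ ≤ M →
    (∀ φ, φ ⬝ᵥ φ ≤ (Γ * ρ) ^ 2 * ((Dm A *ᵥ φ) ⬝ᵥ (Dm A *ᵥ φ))) →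
    ∀ φ, φ ⬝ᵥ φ ≤ (12 * Γ * ρ) ^ 2 * ((Dm (A * B) *ᵥ φ) ⬝ᵥ (Dm (A * B) *ᵥ φ)) := by
  obtain ⟨K₀, hK, h⟩ := clus_gap Λ (4 * Γ) (by linarith)
  refine ⟨3 * K₀, fun M _ A B c r R ρ hA h1 hB h2 h3 h4 h5 hM hG φ => ?_⟩
  have k0 : 16 * R ≤ K₀ * R := Nat.mul_le_mul_right R hK
  rw [mul_assoc] at h5
  have k1 : (ρ : ℝ) ≤ 4 * (ρ / 3 : ℕ) := by exact_mod_cast (by omega : ρ ≤ 4 * (ρ / 3))
  have k2 : ((ρ / 3 : ℕ) : ℝ) ≤ ρ := by exact_mod_cast Nat.div_le_self ρ 3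
  have k3 := h M A B c R r (ρ / 3) hA hB h2 h3 h4 (by omega) (by omega) (fun f hf => ?_)
    (fun ψ => ?_) φ
  · rw [E1.l2sq_univ, E1.l2sq_univ] at k3
    refine k3.trans (mul_le_mul_of_nonneg_right (pow_le_pow_left₀ (by positivity) ?_ 2)
      (C.dot_nonneg _))
    nlinarith
  · have t0 := E1.near_add f c 0
    have t1 := E1.near_add f c 1
    rw [flux, h1 (f, 0) (by simp only; omega), h1 (f + uv M 0, 1) (by simp only; omega),
      h1 (f + uv M 1, 0) (by simp only; omega), h1 (f, 1) (by simp only; omega)]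
    norm_num
  · rw [E1.l2sq_univ, E1.l2sq_univ]
    refine (hG ψ).trans (mul_le_mul_of_nonneg_right (pow_le_pow_left₀ (by positivity) ?_ 2)
      (C.dot_nonneg _))
    nlinarith

end Vale.Agent.N144.G
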