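import Vale.Agent.P144D.H.Plus
import Vale.Agent.P144D.H.Sec
import Vale.Agent.P144D.C.Cor
import Vale.Agent.P144D.C.Str

/-!
The even spin correlations of the nearest-neighbour model, with strings from an inner point.
-/

namespace Vale.Agent.N144.G

open Finset Vale.Agent.P144 Vale.Agent.P144Z

variable {M : ℕ} [NeZero M]

theorem Zw_mul (q : Par) (P B : Gauge M) : Zw q (P * B) 1 = Zw q P fun c => wt B 1 c := by
  refine sum_congr rfl fun c _ => ?_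
  rw [mul_comm P, I1.wt_mul, Pi.one_apply]
  ring

theorem plus_eq {Λ : Finset (ℤ × ℤ)} {T n H : ℕ} (hΛ : ∀ x ∈ Λ, zd x 0 ≤ T)
    (hM : 4 * (T + 2) ≤ M) (hn : Even n) (x : Fin n → ℤ × ℤ) (a c : ℤ × ℤ) (hs : Fin H → ℤ × ℤ)
    (S : Finset (Fin H)) : Zw par0 ((regOf M Λ false).pw * holeG M a hs S * spinG M c x) 1 =
      Zw par0 ((regOf M Λ false).pw * (spinG M a x * holeG M a hs S)) 1 := by
  rw [mul_assoc, H2D.Zw_eq (H2D.sec_pw hΛ hM), H2D.Zw_eq (H2D.sec_pw hΛ hM)]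
  refine congrArg _ (sum_congr rfl fun σ _ => ?_)
  rw [I1.wt_mul, I1.wt_mul, I1.wt_spinG_dom_even hn, I1.wt_spinG_dom_even hn,
    mul_comm (wt (holeG M a hs S) 1 _)]

theorem free_eq {Λ : Finset (ℤ × ℤ)} {T n : ℕ} (hΛ : ∀ x ∈ Λ, zd x 0 ≤ T)
    (hM : 4 * (T + 2) ≤ M) (hn : Even n) {x : Fin n → ℤ × ℤ} (hx : ∀ i, x i ∈ Λ) {c : ℤ × ℤ}
    (hc : zd c 0 ≤ T) : Zw par0 ((regOf M Λ true).pw * spinG M c x) 1 =
      gibbs 1 0 (fun _ => 0) (Kc / 1) none Λ (fun σ => ∏ i, sp (σ (x i))) *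
        Zw par0 (regOf M Λ true).pw 1 := by
  have h0 : 0 < par0.x := H2D.tc_pos
  have h1 := DH1.ZwC_free (M := M) h0 hΛ hM (Φ := 1) fun _ _ _ => rfl
  have h2 := DH1.ZwC_free (M := M) h0 hΛ hM (Φ := fun n => wt (spinG M c x) 1 n) fun n n' h =>
    prod_congr rfl fun e _ => by
      rcases le_or_gt (tdist e.1 0) (T + 1) with he | he
      · rw [h e he]
      · rw [spinG, Finset.prod_apply, prod_eq_one fun i _ => DC.strG_out hc (hΛ _ (hx i)) he]
        simp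
  have h3 := DH1.gibbs_free (M := M) (J := 1) (lam := 0) (β := Kc / 1) par0 U1.pot_zero
    (fun B h => absurd rfl h) (by simp [par0]) (U4.tc_eq.trans (congrArg Real.exp (by ring))) Λ hΛ
    hM (fun σ => ∏ i, sp (σ (x i))) fun σ σ' h => prod_congr rfl fun i _ => by rw [h _ (hx i)]
  rw [Reg.cor_par0, DH1.ZwC_zero] at h1 h2
  simp only [I1.wt_spinG_dom_even hn] at h2
  simp only [Pi.one_apply, one_mul] at h1
  rw [Zw_mul, h1, h2, mul_neg]
  exact congrArg Neg.neg h3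

theorem zero_big (n : ℕ) : ∃ C : ℝ, 0 ≤ C ∧ ∀ (M : ℕ) [NeZero M] (Λ : Finset (ℤ × ℤ)) (fr : Bool)
    (T r ρ H : ℕ) (x : Fin n → ℤ × ℤ) (a c : ℤ × ℤ) (hs : Fin H → ℤ × ℤ) (S : Finset (Fin H)),
    Even n → Holes Λ T ρ a hs → Spins Λ r x → zd c 0 ≤ T → (fr = true → H = 0) → 1 ≤ r →
    4 * (T + 2) ≤ M →
      |Zw par0 ((regOf M Λ fr).pw * holeG M a hs S * spinG M c x) 1| ≤
        C * (r : ℝ) ^ (-((n : ℝ) / 8)) * |Zw par0 (regOf M Λ fr).pw 1| := by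
  obtain ⟨C, hC, h⟩ := MD.spin_decay one_pos n
  refine ⟨C, hC.le, fun M _ Λ fr T r ρ H x a c hs S hn h1 h2 hc hfr hr hM => ?_⟩
  have z0 : ∀ (v : ℤ × ℤ) (k : ℕ), zd v v ≤ k := fun v k => by simp [zd]
  have hinj : Function.Injective x := by
    intro i j e
    by_contra hne
    have h3 := h2.sep i j hne
    rw [e] at h3
    exact absurd (z0 _ _) (not_le.2 h3)
  have hx : ∀ i, x i ∈ Λ := fun i => h2.ins i _ (z0 _ _)
  have hK : ∀ b, |gibbs 1 0 (fun _ => 0) (Kc / 1) b Λ fun σ => ∏ i, sp (σ (x i))| ≤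
      C * (r : ℝ) ^ (-((n : ℝ) / 8)) := fun b => by
    have h3 := h r hr b Λ (univ.image x) (by rw [card_image_of_injective _ hinj]; simp)
      (fun u hu v hv hne => ?_) fun u hu v hv => ?_
    · simpa only [prod_image fun i _ j _ e => hinj e] using h3
    · obtain ⟨i, -, rfl⟩ := mem_image.1 hu
      obtain ⟨j, -, rfl⟩ := mem_image.1 hv
      exact h2.sep i j fun e => hne (by rw [e])
    · obtain ⟨i, -, rfl⟩ := mem_image.1 hu
      exact h2.ins i v hv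
  cases fr
  · rw [plus_eq h1.box hM hn]
    exact H2D.plus_le h1.box hM S hx (H2D.prj_out h1.box hM h1.a_le (h1.a_out _ (z0 _ _)))
      (fun i => H2D.prj_out h1.box hM (h1.h_le i) (h1.h_out i _ (z0 _ _))) fun η => hK _
  · obtain rfl := hfr rfl
    rw [S.eq_empty_of_isEmpty, holeG, prod_empty, mul_one, free_eq h1.box hM hn hx hc, abs_mul]
    exact mul_le_mul_of_nonneg_right (hK _) (abs_nonneg _)

theorem zero_all (n : ℕ) : ∃ C : ℝ, 0 ≤ C ∧ ∀ (M : ℕ) [NeZero M] (Λ : Finset (ℤ × ℤ)) (fr : Bool)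
    (T r ρ H : ℕ) (x : Fin n → ℤ × ℤ) (a c : ℤ × ℤ) (hs : Fin H → ℤ × ℤ) (S : Finset (Fin H)),
    Even n → Holes Λ T ρ a hs → Spins Λ r x → zd c 0 ≤ T → (fr = true → H = 0) → 1 ≤ r → 1 ≤ ρ →
    64 * T ≤ M →
      |Zw par0 ((regOf M Λ fr).pw * holeG M a hs S * spinG M c x) 1| ≤
        C * (r : ℝ) ^ (-((n : ℝ) / 8)) * |Zw par0 (regOf M Λ fr).pw 1| := by
  obtain ⟨C, hC, h⟩ := zero_big n
  refine ⟨C + 1, by linarith, fun M _ Λ fr T r ρ H x a c hs S hn h1 h2 hc hfr hr hρ hM => ?_⟩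
  have p0 : 0 ≤ (r : ℝ) ^ (-((n : ℝ) / 8)) := by positivity
  rcases Nat.eq_zero_or_pos T with rfl | hT
  · have z0 : ∀ v : ℤ × ℤ, zd v 0 ≤ 0 → zd v a ≤ ρ := fun v hv => by
      have := h1.a_le
      simp only [zd, Prod.fst_zero, Prod.snd_zero, sub_zero] at hv this ⊢
      omega
    have hn0 : n = 0 := by
      by_contra h0
      have k := DC.spin_mem h2 ⟨0, Nat.pos_of_ne_zero h0⟩
      exact h1.a_out _ (z0 _ (h1.box _ k)) k
    have hS : S = ∅ := eq_empty_of_forall_notMem fun i _ => by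
      have k := z0 _ (h1.h_le i)
      rw [DC.zd_comm] at k
      exact absurd (h1.ah i) (not_lt.2 k)
    subst hn0 hS
    rw [holeG, prod_empty, mul_one, spinG, Fintype.prod_empty, mul_one]
    simp only [Nat.cast_zero, zero_div, neg_zero, Real.rpow_zero, mul_one]
    exact le_mul_of_one_le_left (abs_nonneg _) (by linarith)
  · refine (h M Λ fr T r ρ H x a c hs S hn h1 h2 hc hfr hr (by omega)).trans ?_
    gcongr
    linarith

end Vale.Agent.N144.G
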