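import Vale.Agent.N144.DefsL
import Vale.Agent.N144.G.Gap
import Vale.Agent.N144.G.Zero

/-!
The bounds of the nearest-neighbour model with a small cluster of fluxes.
-/

namespace Vale.Agent.N144

open Vale.Agent.P144Z

theorem gapMS : GapMS := fun Γ hΓ Λ₁ =>
  let ⟨K₀, h⟩ := G.gap_one Γ hΓ Λ₁
  ⟨12 * Γ, by linarith, K₀, fun M _ A B c r R ρ hA h1 hB _ h2 h3 h4 h5 hM hG =>
    h M A B c r R ρ hA h1 hB h2 h3 h4 h5 hM hG⟩

theorem zeroMS : ZeroMS := G.zero_all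

end Vale.Agent.N144
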